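import Vale.Agent.P237.Quant.TailData.N88.tailN88N0Part0
import Vale.Agent.P237.Quant.TailData.N88.tailN88N0Part1
import Vale.Agent.P237.Quant.TailData.N88.tailN88N0Part2
import Vale.Agent.P237.Quant.TailData.N88.tailN88N0Part3
import Vale.Agent.P237.Quant.TailData.N88.tailN88N0Part4
import Vale.Agent.P237.Quant.TailData.N88.tailN88N0Part5

/-!
Tail calibration tailN88N0 in dimension 88. The check. Generated data, checked by the kernel.
-/

set_option maxRecDepth 100000
set_option linter.all false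

namespace Vale.Agent.P237.Quant.TailData

open TailCert


/-- The calibration. -/
noncomputable def tailN88N0 : Cfg :=
  tailN88N0Base.withIvals (List.flatten [tailN88N0L0, tailN88N0L1, tailN88N0L2, tailN88N0L3, tailN88N0L4, tailN88N0L5, tailN88N0L6, tailN88N0L7, tailN88N0L8, tailN88N0L9, tailN88N0L10, tailN88N0L11, tailN88N0L12, tailN88N0L13, tailN88N0L14, tailN88N0L15, tailN88N0L16, tailN88N0L17, tailN88N0L18, tailN88N0L19, tailN88N0L20, tailN88N0L21])

theorem tailN88N0_parts : [tailN88N0L0, tailN88N0L1, tailN88N0L2, tailN88N0L3, tailN88N0L4, tailN88N0L5, tailN88N0L6, tailN88N0L7, tailN88N0L8, tailN88N0L9, tailN88N0L10, tailN88N0L11, tailN88N0L12, tailN88N0L13, tailN88N0L14, tailN88N0L15, tailN88N0L16, tailN88N0L17, tailN88N0L18, tailN88N0L19, tailN88N0L20, tailN88N0L21].Forall fun l => tailN88N0Base.partUsed tailN88N0Used l = true := by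
  simp only [List.forall_cons, List.Forall]
  exact ⟨tailN88N0L0_ok, tailN88N0L1_ok, tailN88N0L2_ok, tailN88N0L3_ok, tailN88N0L4_ok, tailN88N0L5_ok, tailN88N0L6_ok, tailN88N0L7_ok, tailN88N0L8_ok, tailN88N0L9_ok, tailN88N0L10_ok, tailN88N0L11_ok, tailN88N0L12_ok, tailN88N0L13_ok, tailN88N0L14_ok, tailN88N0L15_ok, tailN88N0L16_ok, tailN88N0L17_ok, tailN88N0L18_ok, tailN88N0L19_ok, tailN88N0L20_ok, tailN88N0L21_ok⟩

theorem tailN88N0_check : tailN88N0.check = true :=
  Cfg.check_of_parts (by decide +kernel) tailN88N0_parts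

end Vale.Agent.P237.Quant.TailData
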