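import Vale.Agent.P237.Quant.TailData.N88.tailN88N1Part0
import Vale.Agent.P237.Quant.TailData.N88.tailN88N1Part1
import Vale.Agent.P237.Quant.TailData.N88.tailN88N1Part2
import Vale.Agent.P237.Quant.TailData.N88.tailN88N1Part3
import Vale.Agent.P237.Quant.TailData.N88.tailN88N1Part4
import Vale.Agent.P237.Quant.TailData.N88.tailN88N1Part5
import Vale.Agent.P237.Quant.TailData.N88.tailN88N1Part6

/-!
Tail calibration tailN88N1 in dimension 88. The check. Generated data, checked by the kernel.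
-/

set_option maxRecDepth 100000
set_option linter.all false

namespace Vale.Agent.P237.Quant.TailData

open TailCert


/-- The calibration. -/
noncomputable def tailN88N1 : Cfg :=
  tailN88N1Base.withIvals (List.flatten [tailN88N1L0, tailN88N1L1, tailN88N1L2, tailN88N1L3, tailN88N1L4, tailN88N1L5, tailN88N1L6, tailN88N1L7, tailN88N1L8, tailN88N1L9, tailN88N1L10, tailN88N1L11, tailN88N1L12, tailN88N1L13, tailN88N1L14, tailN88N1L15, tailN88N1L16, tailN88N1L17, tailN88N1L18, tailN88N1L19, tailN88N1L20, tailN88N1L21, tailN88N1L22, tailN88N1L23, tailN88N1L24])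

theorem tailN88N1_parts : [tailN88N1L0, tailN88N1L1, tailN88N1L2, tailN88N1L3, tailN88N1L4, tailN88N1L5, tailN88N1L6, tailN88N1L7, tailN88N1L8, tailN88N1L9, tailN88N1L10, tailN88N1L11, tailN88N1L12, tailN88N1L13, tailN88N1L14, tailN88N1L15, tailN88N1L16, tailN88N1L17, tailN88N1L18, tailN88N1L19, tailN88N1L20, tailN88N1L21, tailN88N1L22, tailN88N1L23, tailN88N1L24].Forall fun l => tailN88N1Base.partUsed tailN88N1Used l = true := by
  simp only [List.forall_cons, List.Forall]
  exact ⟨tailN88N1L0_ok, tailN88N1L1_ok, tailN88N1L2_ok, tailN88N1L3_ok, tailN88N1L4_ok, tailN88N1L5_ok, tailN88N1L6_ok, tailN88N1L7_ok, tailN88N1L8_ok, tailN88N1L9_ok, tailN88N1L10_ok, tailN88N1L11_ok, tailN88N1L12_ok, tailN88N1L13_ok, tailN88N1L14_ok, tailN88N1L15_ok, tailN88N1L16_ok, tailN88N1L17_ok, tailN88N1L18_ok, tailN88N1L19_ok, tailN88N1L20_ok, tailN88N1L21_ok, tailN88N1L22_ok, tailN88N1L23_ok, tailN88N1L24_ok⟩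

theorem tailN88N1_check : tailN88N1.check = true :=
  Cfg.check_of_parts (by decide +kernel) tailN88N1_parts

end Vale.Agent.P237.Quant.TailData
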